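import Vale.Agent.P331.Integrate

open MeasureTheory
open scoped NNReal ENNReal

namespace Vale.Agent.Results.P331.GirthSingleSample

open Vale.Agent.P331

/-- If all sets of at most `k` elements are independent and independent sets have at most `r`
elements, a one-sample online rule is `k / (8 * (k + r))` competitive against the almighty
adversary. -/
theorem result {E : Type} [Fintype E] [DecidableEq E] (I : Set (Finset E)) (k r : ℕ) (hk : 0 < k)
    (hI : ∀ A : Finset E, A.card ≤ k → A ∈ I) (hr : ∀ A ∈ I, A.card ≤ r) :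
    ∃ (Ω : Type) (_ : Fintype Ω) (_ : Nonempty Ω)
      (dec : Ω → (E → ℝ≥0) → List (E × ℝ≥0) → E × ℝ≥0 → Bool),
      (∀ ω S V l, accepted (dec ω S) V [] l ∈ I) ∧
      (∀ ω l e, MeasurableSet {x : E → ℝ≥0 × ℝ≥0 |
        e ∈ accepted (dec ω fun c => (x c).1) (fun c => (x c).2) [] l}) ∧
      ∀ (D : E → Measure ℝ≥0), (∀ e, IsProbabilityMeasure (D e)) →
      ∀ (π : Ω → (E → ℝ≥0) → (E → ℝ≥0) → List E),
        (∀ ω S V, (π ω S V).Nodup ∧ ∀ e, e ∈ π ω S V) →
        (k : ℝ≥0∞) / (8 * ((k : ℝ≥0∞) + r)) *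
            ∫⁻ x, (⨆ A ∈ I, ∑ e ∈ A, ((x e).2 : ℝ≥0∞)) ∂(Measure.pi fun e => (D e).prod (D e)) ≤
          (Fintype.card Ω : ℝ≥0∞)⁻¹ * ∑ ω : Ω,
            ∫⁻ x, (∑ e ∈ accepted (dec ω fun c => (x c).1) (fun c => (x c).2) []
                (π ω (fun c => (x c).1) (fun c => (x c).2)), ((x e).2 : ℝ≥0∞))
              ∂(Measure.pi fun e => (D e).prod (D e)) := by
  have : NeZero k := ⟨hk.ne'⟩
  refine ⟨(E → Fin k) × Bool, inferInstance, inferInstance, Vale.Agent.P331.dec, ?_,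
    fun ω l e => measurableSet_accepted ω e l [], ?_⟩
  · intro ω S V l
    refine hI _ ?_
    have hc := Finset.card_le_card_of_injOn ω.1 (t := (Finset.univ : Finset (Fin k)))
      (fun _ _ => Finset.mem_univ _) (acc_inj ω.1 ω.2 S V l [])
    simpa using hc
  intro D hD π hπ
  set P := Measure.pi fun e => (D e).prod (D e) with hP
  set X := ∫⁻ x, (⨆ A ∈ I, ∑ e ∈ A, ((x e).2 : ℝ≥0∞)) ∂P with hX
  set G := ∑ ω : (E → Fin k) × Bool,
    ∫⁻ x, (∑ e ∈ accepted (Vale.Agent.P331.dec ω fun c => (x c).1) (fun c => (x c).2) []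
      (π ω (fun c => (x c).1) (fun c => (x c).2)), ((x e).2 : ℝ≥0∞)) ∂P with hG
  set N : ℝ≥0∞ := (Fintype.card (E → Fin k) : ℝ≥0∞) with hN
  have htop : ∀ (h : E → Fin k) (g : Fin k), Measurable fun x : E → ℝ≥0 × ℝ≥0 =>
      top h g (vl x) := fun h g =>
    measurable_finsupsup _ (fun e x => ((x e).2 : ℝ≥0∞)) measurable_snd_coe
  have h1 : (k : ℝ≥0∞) * N * X ≤ ((k : ℝ≥0∞) + r) * ∑ h : E → Fin k, ∑ g : Fin k, ∫⁻ x, top h g (vl x) ∂P := by
    have hpt : ∀ x : E → ℝ≥0 × ℝ≥0, (k : ℝ≥0∞) * N * (⨆ A ∈ I, ∑ e ∈ A, ((x e).2 : ℝ≥0∞)) ≤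
        ((k : ℝ≥0∞) + r) * ∑ h : E → Fin k, ∑ g : Fin k, top h g (vl x) := by
      intro x
      simp only [ENNReal.mul_iSup]
      exact iSup₂_le fun A hA => group_bound A r (hr A hA) hk (vl x)
    calc (k : ℝ≥0∞) * N * X
        = ∫⁻ x, (k : ℝ≥0∞) * N * (⨆ A ∈ I, ∑ e ∈ A, ((x e).2 : ℝ≥0∞)) ∂P :=
          (lintegral_const_mul' _ _ (ENNReal.mul_ne_top (by simp) (by simp [hN]))).symm
      _ ≤ ∫⁻ x, ((k : ℝ≥0∞) + r) * ∑ h : E → Fin k, ∑ g : Fin k, top h g (vl x) ∂P := lintegral_mono hpt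
      _ = ((k : ℝ≥0∞) + r) * ∫⁻ x, ∑ h : E → Fin k, ∑ g : Fin k, top h g (vl x) ∂P :=
          lintegral_const_mul' _ _ (by simp)
      _ = ((k : ℝ≥0∞) + r) * ∑ h : E → Fin k, ∑ g : Fin k, ∫⁻ x, top h g (vl x) ∂P := by
          rw [lintegral_finsetSum _ (fun h _ => Finset.measurable_sum _ fun g _ => htop h g)]
          simp only [lintegral_finsetSum _ (fun g _ => htop _ g)]
  have h2 : ∑ h : E → Fin k, ∑ g : Fin k, ∫⁻ x, low h g x ∂P ≤ G := by
    rw [hG, Fintype.sum_prod_type]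
    refine Finset.sum_le_sum fun h _ => ?_
    have mlow : ∀ g : Fin k, Measurable fun x : E → ℝ≥0 × ℝ≥0 => low h g x := fun g =>
      (measurable_low h g).1.add (measurable_low h g).2
    rw [Fintype.sum_bool, ← lintegral_finsetSum _ (fun g _ => mlow g)]
    simp only [low, Finset.sum_add_distrib]
    rw [lintegral_add_left (Finset.measurable_sum _ fun g _ => (measurable_low h g).1)]
    exact add_le_add
      (lintegral_mono fun x => low_le_gain h true (smp x) (vl x) _ (hπ _ _ _).2)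
      (lintegral_mono fun x => low_le_gain h false (smp x) (vl x) _ (hπ _ _ _).2)
  have h3 : (k : ℝ≥0∞) * N * X ≤ ((k : ℝ≥0∞) + r) * (4 * G) := by
    refine h1.trans (mul_le_mul_right ?_ _)
    refine le_trans ?_ (mul_le_mul_right h2 _)
    simp only [Finset.mul_sum]
    exact Finset.sum_le_sum fun h _ => Finset.sum_le_sum fun g _ => integral_bound D h g
  have hcard : (Fintype.card ((E → Fin k) × Bool) : ℝ≥0∞) = N * 2 := by
    simp [hN, Fintype.card_prod]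
  rw [hcard]
  calc (k : ℝ≥0∞) / (8 * ((k : ℝ≥0∞) + r)) * X
      = (N * 2)⁻¹ * (N * 2 * ((k : ℝ≥0∞) * X) / (8 * ((k : ℝ≥0∞) + r))) := by
        rw [div_eq_mul_inv, div_eq_mul_inv, ← mul_assoc, ← mul_assoc,
          ENNReal.inv_mul_cancel, one_mul]
        · ring
        · simp [hN, hk.ne']
        · exact ENNReal.mul_ne_top (by simp [hN]) (by simp)
    _ ≤ (N * 2)⁻¹ * G := by
        refine mul_le_mul_right (ENNReal.div_le_of_le_mul ?_) _
        calc N * 2 * ((k : ℝ≥0∞) * X) = 2 * ((k : ℝ≥0∞) * N * X) := by ring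
          _ ≤ 2 * (((k : ℝ≥0∞) + r) * (4 * G)) := mul_le_mul_right h3 _
          _ = G * (8 * ((k : ℝ≥0∞) + r)) := by ring

end Vale.Agent.Results.P331.GirthSingleSample
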